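import Vale.Agent.P146.H478.Pl

set_option linter.all false

/-!
The exponential moment of the increment of the log-weight at the level `J`, when the exponent
`m_{l+1}` is changed, is at most the exponential of its first order part.
-/

open MeasureTheory ProbabilityTheory

namespace Vale.Agent.P146.H478

open Vale.Agent.P157 Vale.Agent.P157.Lv Vale.Agent.P157.Lv.Sy
open Vale.Agent.P146.H425

variable {ι X : Type} [Fintype ι] [Fintype X] [Nonempty X] [DecidableEq ι]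
  {S : Sy ι X} {a : X → ι → ℝ} {c : X → ℝ} {b : ι → ℝ} {Y : Type}
  {τ : Y → (ι → ℝ) → (ι → ℝ)} {C : ℝ}

lemma lip_D (hS : S.Reg) {m' : ℕ → ℝ} (hm' : (wm S m').Reg) {j : ℕ} (hj : j ≤ S.K) :
    Lip fun z => (wm S m').lg j z - S.lg j z := by
  have h1 := (hm'.lip_lg (l := j) hj).add ((hS.lip_lg hj).const_mul (-1))
  have e : (fun z => (wm S m').lg j z - S.lg j z) =
      fun z => (wm S m').lg j z + -1 * S.lg j z := by
    funext z; ring
  rw [e]
  exact h1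

/-- The increments of the log-weights are a supermartingale below the changed exponent. -/
theorem T_inc_le (hS : S.Reg) {m' : ℕ → ℝ} (hm' : (wm S m').Reg) {J j : ℕ} (hJ : J ≤ j)
    (hj : j ≤ S.K) (heq : ∀ i, 1 ≤ i → i ≤ j → m' i = S.m i) (z : ι → ℝ) :
    S.T J (fun z _ => (wm S m').lg j z - S.lg j z) z ≤ (wm S m').lg J z - S.lg J z := by
  have hr : 0 < S.m 1 := hS.pos
  have hL := lip_D hS hm' hj
  have h1 := T_exp_le hS hm' hj hr heq (fun i h1 h2 => hS.m_mono h1 (by omega)) J hJ z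
  have h2 := exp_T_le hS (hJ.trans hj) (f := fun z => S.m 1 * ((wm S m').lg j z - S.lg j z))
    (hL.eg.const_mul _) (hL.exp_eg _) z
  have h3 := Real.exp_le_exp.1 (h2.trans h1)
  rw [T_const_mul] at h3
  exact le_of_mul_le_mul_left h3 hr

/-- The weighted slope. -/
noncomputable def Phi (S : Sy ι X) (J l0 : ℕ) (z : ι → ℝ) : ℝ :=
  ∑ j ∈ Finset.Ico J (l0 + 1), (S.m (j + 1) - S.m j) * S.T j (fun z _ => kf S l0 z) z

lemma sum_wt (m : ℕ → ℝ) {J l0 : ℕ} (hJ : J ≤ l0) :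
    ∑ j ∈ Finset.Ico J (l0 + 1), (m (j + 1) - m j) = m (l0 + 1) - m J := by
  induction l0, hJ using Nat.le_induction with
  | base => rw [Nat.Ico_succ_singleton, Finset.sum_singleton]
  | succ n hn ih =>
    rw [Finset.sum_Ico_succ_top (by omega), ih]
    ring

lemma wt_nonneg (hS : S.Reg) {J l0 : ℕ} (hl0 : l0 < S.K) {j : ℕ}
    (hj : j ∈ Finset.Ico J (l0 + 1)) : 0 ≤ S.m (j + 1) - S.m j := by
  rw [Finset.mem_Ico] at hj
  have := hS.mono j (by omega)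
  linarith

lemma T_kf_le (h : LinS S a c) {m' : ℕ → ℝ} (hm' : (wm S m').Reg) {j l0 : ℕ} (hj : j ≤ l0)
    (hl0 : l0 < S.K) (heq : ∀ j, j ≠ l0 + 1 → m' j = S.m j) (z : ι → ℝ) :
    (m' (l0 + 1) - S.m (l0 + 1)) * S.T j (fun z _ => kf S l0 z) z ≤
      (wm S m').lg j z - S.lg j z := by
  have hS := h.reg
  have hp : 0 < m' (l0 + 1) :=
    hm'.m_pos (l := l0 + 1) (by omega) (show l0 + 1 ≤ S.K + 1 by omega)
  have h1 := T_inc_le hS hm' hj hl0.le (fun i _ h2 => heq i (by omega)) z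
  refine le_trans ?_ h1
  rw [← T_const_mul]
  exact hS.T_mono (hj.trans hl0.le) (Nh.fst ((eg_kf hS hl0).const_mul _))
    (Nh.fst (lip_D hS hm' hl0.le).eg)
    (fun z _ => by
      have := h.tangent_lg hl0 hp (fun i h1 _ => heq i (by omega)) z
      linarith) z

lemma T_kf_bd (hS : S.Reg) {j l0 : ℕ} (hj : j ≤ l0) (hl0 : l0 < S.K) {B : ℝ}
    (hk0 : ∀ z, 0 ≤ kf S l0 z) (hkb : ∀ z, kf S l0 z ≤ B) (z : ι → ℝ) :
    0 ≤ S.T j (fun z _ => kf S l0 z) z ∧ S.T j (fun z _ => kf S l0 z) z ≤ B := by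
  constructor
  · rw [← hS.T_const (hj.trans hl0.le) 0 z]
    exact hS.T_mono (hj.trans hl0.le) (fun _ => EG.const 0) (Nh.fst (eg_kf hS hl0))
      (fun z _ => hk0 z) z
  · rw [← hS.T_const (hj.trans hl0.le) B z]
    exact hS.T_mono (hj.trans hl0.le) (Nh.fst (eg_kf hS hl0)) (fun _ => EG.const B)
      (fun z _ => hkb z) z

lemma Phi_bd (hS : S.Reg) {J l0 : ℕ} (hJ : J ≤ l0) (hl0 : l0 < S.K) {B : ℝ}
    (hk0 : ∀ z, 0 ≤ kf S l0 z) (hkb : ∀ z, kf S l0 z ≤ B) (z : ι → ℝ) :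
    0 ≤ Phi S J l0 z ∧ Phi S J l0 z ≤ (S.m (l0 + 1) - S.m J) * B := by
  unfold Phi
  constructor
  · refine Finset.sum_nonneg fun j hj => ?_
    have h1 := wt_nonneg hS hl0 hj
    rw [Finset.mem_Ico] at hj
    exact mul_nonneg h1 (T_kf_bd hS (by omega) hl0 hk0 hkb z).1
  · rw [← sum_wt S.m hJ, Finset.sum_mul]
    refine Finset.sum_le_sum fun j hj => ?_
    have h1 := wt_nonneg hS hl0 hj
    rw [Finset.mem_Ico] at hj
    exact mul_le_mul_of_nonneg_left (T_kf_bd hS (by omega) hl0 hk0 hkb z).2 h1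

lemma eg_Phi (hS : S.Reg) {J l0 : ℕ} (hl0 : l0 < S.K) : EG (Phi S J l0) := by
  unfold Phi
  refine EG.sum _ fun j hj => ?_
  rw [Finset.mem_Ico] at hj
  exact (hS.eg_T (by omega) (Nh.fst (eg_kf hS hl0))).const_mul _

lemma Ex_Phi (hS : S.Reg) {J l0 : ℕ} (hJ : J ≤ l0) (hl0 : l0 < S.K) :
    S.Ex (fun z _ => Phi S J l0 z) =
      (S.m (l0 + 1) - S.m J) * S.Ex (fun z _ => kf S l0 z) := by
  unfold Phi
  rw [hS.Ex_sum (Finset.Ico J (l0 + 1))
    (f := fun j z _ => (S.m (j + 1) - S.m j) * S.T j (fun z _ => kf S l0 z) z)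
    (fun j hj => by
      rw [Finset.mem_Ico] at hj
      exact Nh.fst ((hS.eg_T (by omega) (Nh.fst (eg_kf hS hl0))).const_mul _))]
  rw [← sum_wt S.m hJ, Finset.sum_mul]
  refine Finset.sum_congr rfl fun j hj => ?_
  rw [Finset.mem_Ico] at hj
  rw [Ex_const_mul, hS.Ex_T (by omega) (Nh.fst (eg_kf hS hl0))]

lemma Phi_le_Yi (h : LinS S a c) {m' : ℕ → ℝ} (hm' : (wm S m').Reg) {J l0 : ℕ}
    (hl0 : l0 < S.K) (heq : ∀ j, j ≠ l0 + 1 → m' j = S.m j) (z : ι → ℝ) :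
    (m' (l0 + 1) - S.m (l0 + 1)) * Phi S J l0 z ≤ Yi S m' J l0 z := by
  unfold Phi Yi
  rw [Finset.mul_sum]
  refine Finset.sum_le_sum fun j hj => ?_
  have h1 := wt_nonneg h.reg hl0 hj
  rw [Finset.mem_Ico] at hj
  have h2 := mul_le_mul_of_nonneg_left
    (T_kf_le h hm' (j := j) (l0 := l0) (by omega) hl0 heq z) h1
  linarith

/-- the derivative at zero of the exponential moment along the segment -/
theorem Ex_seg_le (h : LinS S a c) {m' : ℕ → ℝ} (hm' : (wm S m').Reg) {J l0 : ℕ}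
    (hJ : J ≤ l0) (hl0 : l0 < S.K) (heq : ∀ j, j ≠ l0 + 1 → m' j = S.m j) {B : ℝ}
    (hk0 : ∀ z, 0 ≤ kf S l0 z) (hkb : ∀ z, kf S l0 z ≤ B) {t : ℝ} (ht : 0 ≤ t) (ht1 : t ≤ 1)
    (htM : t * (|m' (l0 + 1) - S.m (l0 + 1)| * ((S.m (l0 + 1) - S.m J) * B)) ≤ 1) :
    S.Ex (fun z _ => Real.exp (-Yi S (mth S m' t) J l0 z)) ≤
      1 - t * (m' (l0 + 1) - S.m (l0 + 1)) *
        ((S.m (l0 + 1) - S.m J) * S.Ex (fun z _ => kf S l0 z)) +
      (t * (|m' (l0 + 1) - S.m (l0 + 1)| * ((S.m (l0 + 1) - S.m J) * B))) ^ 2 := by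
  have hS := h.reg
  have hmt := mth_reg hS hm' ht ht1
  obtain ⟨d, hd⟩ : ∃ d, d = m' (l0 + 1) - S.m (l0 + 1) := ⟨_, rfl⟩
  obtain ⟨W, hW⟩ : ∃ W, W = S.m (l0 + 1) - S.m J := ⟨_, rfl⟩
  have hdt : mth S m' t (l0 + 1) - S.m (l0 + 1) = t * d := by
    rw [hd]; unfold mth; ring
  have heqt : ∀ j, j ≠ l0 + 1 → mth S m' t j = S.m j := by
    intro j hj
    unfold mth
    rw [heq j hj]; ring
  have e0 : EG (Phi S J l0) := eg_Phi hS hl0
  have ey : EG fun z => Real.exp (-Yi S (mth S m' t) J l0 z) := by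
    have := (lip_Yi (J := J) (l0 := l0) hS hmt hl0.le).exp_eg (-1)
    simpa only [neg_one_mul] using this
  rw [← hd, ← hW]
  rw [← hd, ← hW] at htM
  have key : S.Ex (fun z _ => Real.exp (-Yi S (mth S m' t) J l0 z)) ≤
      S.Ex (fun z _ => -(t * d) * Phi S J l0 z + (1 + (t * (|d| * (W * B))) ^ 2)) := by
    refine hS.Ex_mono (Nh.fst ey) (Nh.fst ((e0.const_mul _).add (EG.const _))) fun z _ => ?_
    have h1 := Phi_le_Yi h hmt (J := J) hl0 heqt z
    rw [hdt] at h1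
    obtain ⟨h2, h3⟩ := Phi_bd hS hJ hl0 hk0 hkb z
    rw [← hW] at h3
    have h4 : |-(t * d * Phi S J l0 z)| ≤ t * (|d| * (W * B)) := by
      rw [abs_neg, abs_mul, abs_mul, abs_of_nonneg ht, abs_of_nonneg h2, mul_assoc]
      exact mul_le_mul_of_nonneg_left (mul_le_mul_of_nonneg_left h3 (abs_nonneg _)) ht
    have h5 := Real.abs_exp_sub_one_sub_id_le (h4.trans htM)
    have h6 : (-(t * d * Phi S J l0 z)) ^ 2 ≤ (t * (|d| * (W * B))) ^ 2 := by
      rw [← sq_abs (-(t * d * Phi S J l0 z))]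
      exact pow_le_pow_left₀ (abs_nonneg _) h4 2
    have h7 := (abs_le.1 h5).2
    have h8 : Real.exp (-Yi S (mth S m' t) J l0 z) ≤ Real.exp (-(t * d * Phi S J l0 z)) :=
      Real.exp_le_exp.2 (by linarith)
    linarith
  refine key.trans (le_of_eq ?_)
  rw [hS.Ex_add (Nh.fst (e0.const_mul _)) (fun _ => EG.const _), Ex_const_mul, hS.Ex_const,
    Ex_Phi hS hJ hl0, ← hW]
  ring

/-- **The exponential moment of the weighted increments.** -/
theorem Yi_gain (h : LinS S a c) (P : Pla S b τ C) {m' : ℕ → ℝ} (hm' : (wm S m').Reg)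
    {J l0 : ℕ} (heq : ∀ j, j ≠ l0 + 1 → m' j = S.m j) (hJ1 : 1 ≤ J) (hJ : J ≤ l0)
    (hl0 : l0 < S.K) {B : ℝ} (hk0 : ∀ z, 0 ≤ kf S l0 z) (hkb : ∀ z, kf S l0 z ≤ B) :
    S.Ex (fun z _ => Real.exp (-Yi S m' J l0 z)) ≤
      Real.exp (-((S.m (l0 + 1) - S.m J) * ((m' (l0 + 1) - S.m (l0 + 1)) *
        S.Ex (fun z _ => kf S l0 z)))) := by
  have hS := h.reg
  obtain ⟨A, hA⟩ : ∃ A, A = S.Ex (fun z _ => Real.exp (-Yi S m' J l0 z)) := ⟨_, rfl⟩
  obtain ⟨g, hg⟩ : ∃ g, g = (S.m (l0 + 1) - S.m J) * ((m' (l0 + 1) - S.m (l0 + 1)) *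
        S.Ex (fun z _ => kf S l0 z)) := ⟨_, rfl⟩
  obtain ⟨M, hM⟩ : ∃ M, M = |m' (l0 + 1) - S.m (l0 + 1)| * ((S.m (l0 + 1) - S.m J) * B) :=
    ⟨_, rfl⟩
  rw [← hA, ← hg]
  have hB : 0 ≤ B := (hk0 0).trans (hkb 0)
  have hW : 0 ≤ S.m (l0 + 1) - S.m J := by
    have := hS.m_mono (l := J) (l' := l0 + 1) (by omega) (by omega)
    linarith
  have hM0 : 0 ≤ M := by rw [hM]; positivity
  have ey : EG fun z => Real.exp (-Yi S m' J l0 z) := by
    have := (lip_Yi (J := J) (l0 := l0) hS hm' hl0.le).exp_eg (-1)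
    simpa only [neg_one_mul] using this
  by_cases hA0 : A ≤ 0
  · exact hA0.trans (Real.exp_pos _).le
  push Not at hA0
  rw [← Real.log_le_iff_le_exp hA0]
  refine le_of_forall_pos_le_add fun ε hε => ?_
  obtain ⟨t, ht⟩ : ∃ t, t = min (1 / 2) (min (1 / (M + 1)) (ε / (M ^ 2 + 1))) := ⟨_, rfl⟩
  have t0 : 0 < t := by rw [ht]; positivity
  have t1 : t ≤ 1 / 2 := by rw [ht]; exact min_le_left _ _
  have t2 : t ≤ 1 / (M + 1) := by
    rw [ht]; exact (min_le_right _ _).trans (min_le_left _ _)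
  have t3 : t ≤ ε / (M ^ 2 + 1) := by
    rw [ht]; exact (min_le_right _ _).trans (min_le_right _ _)
  have t4 : t * M ≤ 1 := by
    rw [le_div_iff₀ (by positivity)] at t2
    nlinarith
  have t5 : t * M ^ 2 ≤ ε := by
    rw [le_div_iff₀ (by positivity)] at t3
    nlinarith
  have h1 := pl_ratio h P hm' hJ1 hl0.le (J := J) t0 (by linarith : t < 1)
  have h2 := Ex_seg_le h hm' hJ hl0 heq hk0 hkb t0.le (by linarith) (by rw [← hM]; exact t4)
  rw [← hA] at h1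
  rw [← hM] at h2
  have h3 := h1.trans h2
  have h4 : t * (m' (l0 + 1) - S.m (l0 + 1)) *
        ((S.m (l0 + 1) - S.m J) * S.Ex (fun z _ => kf S l0 z)) = t * g := by
    rw [hg]; ring
  rw [h4] at h3
  have h5 : 0 < A ^ t := Real.rpow_pos_of_pos hA0 t
  have h6 := Real.log_le_log h5 h3
  rw [Real.log_rpow hA0] at h6
  have h7 := Real.log_le_sub_one_of_pos (h5.trans_le h3)
  have h8 : t * Real.log A ≤ t * (-g + t * M ^ 2) := by nlinarith
  have h9 := le_of_mul_le_mul_left h8 t0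
  linarith

/-- **The exponential moment of the increment at the level `J`.** -/
theorem pl_gain (h : LinS S a c) (P : Pla S b τ C) {m' : ℕ → ℝ} (hm' : (wm S m').Reg)
    {J l0 : ℕ} (heq : ∀ j, j ≠ l0 + 1 → m' j = S.m j) (hJ1 : 1 ≤ J) (hJ : J ≤ l0)
    (hl0 : l0 < S.K) {B : ℝ} (hk0 : ∀ z, 0 ≤ kf S l0 z) (hkb : ∀ z, kf S l0 z ≤ B) :
    S.Ex (fun z _ => Real.exp (-((S.m (l0 + 1) - S.m J) *
        ((wm S m').lg J z - S.lg J z)))) ≤
      Real.exp (-((S.m (l0 + 1) - S.m J) * ((m' (l0 + 1) - S.m (l0 + 1)) *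
        S.Ex (fun z _ => kf S l0 z)))) := by
  have hS := h.reg
  have hJK : J ≤ S.K := by omega
  have Ly := lip_Yi (J := J) (l0 := l0) hS hm' hl0.le
  have ey : EG fun z => Real.exp (-Yi S m' J l0 z) := by
    have := Ly.exp_eg (-1)
    simpa only [neg_one_mul] using this
  have eD : EG fun z => Real.exp (-((S.m (l0 + 1) - S.m J) *
        ((wm S m').lg J z - S.lg J z))) := by
    have := (lip_D hS hm' hJK).exp_eg (-(S.m (l0 + 1) - S.m J))
    simpa only [neg_mul] using this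
  have h0 := Yi_gain h P hm' heq hJ1 hJ hl0 hk0 hkb
  rw [← hS.Ex_T hJK (Nh.fst ey)] at h0
  refine le_trans ?_ h0
  refine hS.Ex_mono (Nh.fst eD) (Nh.fst (hS.eg_T hJK (Nh.fst ey))) fun z _ => ?_
  have h1 := exp_T_le hS hJK (f := fun z => -Yi S m' J l0 z) Ly.eg.neg ey z
  refine le_trans (Real.exp_le_exp.2 ?_) h1
  have e1 : S.T J (fun z _ => -Yi S m' J l0 z) z = -S.T J (fun z _ => Yi S m' J l0 z) z := by
    have := T_const_mul S J (-1) (fun z _ => Yi S m' J l0 z) z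
    simpa only [neg_one_mul] using this
  rw [e1]
  refine neg_le_neg ?_
  have e2 : S.T J (fun z _ => Yi S m' J l0 z) z = ∑ j ∈ Finset.Ico J (l0 + 1),
      (S.m (j + 1) - S.m j) * S.T J (fun z _ => (wm S m').lg j z - S.lg j z) z := by
    unfold Yi
    rw [hS.T_sum hJK (Finset.Ico J (l0 + 1))
      (f := fun j z _ => (S.m (j + 1) - S.m j) * ((wm S m').lg j z - S.lg j z))
      (fun j hj => by
        rw [Finset.mem_Ico] at hj
        exact Nh.fst ((lip_D hS hm' (by omega)).eg.const_mul _)) z]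
    refine Finset.sum_congr rfl fun j _ => ?_
    rw [T_const_mul]
  rw [e2, ← sum_wt S.m hJ, Finset.sum_mul]
  refine Finset.sum_le_sum fun j hj => ?_
  have h2 := wt_nonneg hS hl0 hj
  rw [Finset.mem_Ico] at hj
  exact mul_le_mul_of_nonneg_left
    (T_inc_le hS hm' hj.1 (by omega) (fun i _ h3 => heq i (by omega)) z) h2

end Vale.Agent.P146.H478
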