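import Vale.Agent.P146.H425.Kf

set_option linter.all false

/-!
The planted form of the tilted law of a layered system (definition).
-/

open MeasureTheory ProbabilityTheory

namespace Vale.Agent.P146.H478

open Vale.Agent.P157 Vale.Agent.P157.Lv Vale.Agent.P157.Lv.Sy
open Vale.Agent.P146.H425

variable {ι X : Type} [Fintype ι] [Fintype X]

/-- The tilted law of `S` in the gauge of a replica: on the functions which are invariant under
the maps `τ y`, it has the density `C exp (b · z - ∑ (m_{j+1} - m_j) lg_j)`; the log-weights are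
invariant, also with other exponents. -/
structure Pla (S : Sy ι X) (b : ι → ℝ) {Y : Type} (τ : Y → (ι → ℝ) → (ι → ℝ)) (C : ℝ) :
    Prop where
  pos : 0 < C
  inv : ∀ m' : ℕ → ℝ, (wm S m').Reg → ∀ j ≤ S.K, ∀ y z,
    (wm S m').lg j (τ y z) = (wm S m').lg j z
  ex : ∀ f : (ι → ℝ) → ℝ, EG f → (∀ y z, f (τ y z) = f z) →
    S.Ex (fun z _ => f z) = C * ∫ z, Real.exp (∑ e, b e * z e -
      ∑ j ∈ Finset.Ico 1 (S.K + 1), (S.m (j + 1) - S.m j) * S.lg j z) * f z ∂(gI ι)

end Vale.Agent.P146.H478
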