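import Vale.Agent.P146.H478.Pla
import Vale.Agent.P146.H425.LgJ
import Vale.Agent.P146.H425.X1
import Vale.Agent.P146.H605.LogCc

set_option linter.all false

/-!
The Prekopa-Leindler step: the exponential moment of the increment of the log-weights, when one
exponent is changed, in the planted gauge.
-/

open MeasureTheory ProbabilityTheory
open scoped ENNReal

namespace Vale.Agent.P146.H478

open Vale.Agent.P157 Vale.Agent.P157.Lv Vale.Agent.P157.Lv.Sy
open Vale.Agent.P146.H425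

variable {ι X : Type} [Fintype ι] [Fintype X] [Nonempty X] [DecidableEq ι]
  {S : Sy ι X} {a : X → ι → ℝ} {c : X → ℝ} {b : ι → ℝ} {Y : Type}
  {τ : Y → (ι → ℝ) → (ι → ℝ)} {C : ℝ}

/-- Prekopa-Leindler with real exponentials. -/
theorem pl_real {U0 U1 U2 : (ι → ℝ) → ℝ} (h0 : EG fun z => Real.exp (U0 z))
    (h1 : EG fun z => Real.exp (U1 z)) (h2 : EG fun z => Real.exp (U2 z)) {s t : ℝ} (hs : 0 < s)
    (ht : 0 < t) (hst : s + t = 1) (h : ∀ x y, s * U0 x + t * U1 y ≤ U2 (s • x + t • y)) :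
    (∫ z, Real.exp (U0 z) ∂(gI ι)) ^ s * (∫ z, Real.exp (U1 z) ∂(gI ι)) ^ t ≤
      ∫ z, Real.exp (U2 z) ∂(gI ι) := by
  have key := H605.LogCc.pl_gauss hs ht hst (fun z => ENNReal.ofReal (Real.exp (U0 z)))
    (fun z => ENNReal.ofReal (Real.exp (U1 z))) (fun z => ENNReal.ofReal (Real.exp (U2 z)))
    h0.meas.ennreal_ofReal h1.meas.ennreal_ofReal h2.meas.ennreal_ofReal (fun x y => by
      rw [ENNReal.ofReal_rpow_of_pos (Real.exp_pos _), ENNReal.ofReal_rpow_of_pos (Real.exp_pos _),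
        ← ENNReal.ofReal_mul (by positivity), ← Real.exp_mul, ← Real.exp_mul, ← Real.exp_add]
      refine ENNReal.ofReal_le_ofReal (Real.exp_le_exp.2 ?_)
      have := h x y
      linarith)
  rw [← ofReal_integral_eq_lintegral_ofReal h0.integrable
      (Filter.Eventually.of_forall fun z => (Real.exp_pos _).le),
    ← ofReal_integral_eq_lintegral_ofReal h1.integrable
      (Filter.Eventually.of_forall fun z => (Real.exp_pos _).le),
    ← ofReal_integral_eq_lintegral_ofReal h2.integrable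
      (Filter.Eventually.of_forall fun z => (Real.exp_pos _).le)] at key
  have p0 : 0 < ∫ z, Real.exp (U0 z) ∂(gI ι) := integral_exp_pos h0.integrable
  have p1 : 0 < ∫ z, Real.exp (U1 z) ∂(gI ι) := integral_exp_pos h1.integrable
  have p2 : 0 < ∫ z, Real.exp (U2 z) ∂(gI ι) := integral_exp_pos h2.integrable
  rw [ENNReal.ofReal_rpow_of_pos p0, ENNReal.ofReal_rpow_of_pos p1,
    ← ENNReal.ofReal_mul (by positivity)] at key
  exact (ENNReal.ofReal_le_ofReal_iff p2.le).1 key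

/-- The weighted increment of the log-weights of the levels `J, …, l0`. -/
noncomputable def Yi (S : Sy ι X) (m' : ℕ → ℝ) (J l0 : ℕ) (z : ι → ℝ) : ℝ :=
  ∑ j ∈ Finset.Ico J (l0 + 1), (S.m (j + 1) - S.m j) * ((wm S m').lg j z - S.lg j z)

lemma lip_Yi (hS : S.Reg) {m' : ℕ → ℝ} (hm' : (wm S m').Reg) {J l0 : ℕ} (hl0 : l0 ≤ S.K) :
    Lip (Yi S m' J l0) := by
  unfold Yi
  refine Lip.sum _ fun j hj => ?_
  rw [Finset.mem_Ico] at hj
  have h1 := (hm'.lip_lg (l := j) (show j ≤ S.K by omega)).add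
    ((hS.lip_lg (l := j) (by omega)).const_mul (-1))
  have e : (fun z => (S.m (j + 1) - S.m j) * ((wm S m').lg j z - S.lg j z)) =
      fun z => (S.m (j + 1) - S.m j) * ((wm S m').lg j z + -1 * S.lg j z) := by
    funext z; ring
  rw [e]
  exact h1.const_mul _

/-- the exponent of the planted density -/
noncomputable def U0 (S : Sy ι X) (b : ι → ℝ) (z : ι → ℝ) : ℝ :=
  ∑ e, b e * z e - ∑ j ∈ Finset.Ico 1 (S.K + 1), (S.m (j + 1) - S.m j) * S.lg j z

lemma lip_U0 (hS : S.Reg) : Lip (U0 S b) := by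
  have h1 : Lip fun z : ι → ℝ => ∑ e, b e * z e :=
    Lip.sum _ fun e _ => (Lip.coord e).const_mul _
  have h2 : Lip fun z : ι → ℝ => ∑ j ∈ Finset.Ico 1 (S.K + 1), (S.m (j + 1) - S.m j) * S.lg j z :=
    Lip.sum _ fun j hj => by
      rw [Finset.mem_Ico] at hj
      exact (hS.lip_lg (l := j) (by omega)).const_mul _
  have h3 := h1.add (h2.const_mul (-1))
  have e : U0 S b = fun z => ∑ e, b e * z e +
      -1 * ∑ j ∈ Finset.Ico 1 (S.K + 1), (S.m (j + 1) - S.m j) * S.lg j z := by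
    funext z; unfold U0; ring
  rw [e]
  exact h3

/-- the log-weights with the exponents `m'` in the window -/
noncomputable def Lw (S : Sy ι X) (m' : ℕ → ℝ) (J l0 j : ℕ) (z : ι → ℝ) : ℝ :=
  if J ≤ j ∧ j ≤ l0 then (wm S m').lg j z else S.lg j z

lemma U0_sub_Yi {m' : ℕ → ℝ} {J l0 : ℕ} (hJ : 1 ≤ J) (hl0 : l0 ≤ S.K) (z : ι → ℝ) :
    U0 S b z - Yi S m' J l0 z = ∑ e, b e * z e -
      ∑ j ∈ Finset.Ico 1 (S.K + 1), (S.m (j + 1) - S.m j) * Lw S m' J l0 j z := by
  have h : Yi S m' J l0 z = ∑ j ∈ Finset.Ico 1 (S.K + 1),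
      (S.m (j + 1) - S.m j) * (Lw S m' J l0 j z - S.lg j z) := by
    unfold Yi
    have hsub : Finset.Ico J (l0 + 1) ⊆ Finset.Ico 1 (S.K + 1) := by
      intro j hj
      rw [Finset.mem_Ico] at hj ⊢
      omega
    rw [← Finset.sum_subset hsub (f := fun j => (S.m (j + 1) - S.m j) *
      (Lw S m' J l0 j z - S.lg j z))]
    · refine Finset.sum_congr rfl fun j hj => ?_
      rw [Finset.mem_Ico] at hj
      unfold Lw
      rw [if_pos ⟨hj.1, by omega⟩]
    · intro j _ hj
      rw [Finset.mem_Ico] at hj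
      unfold Lw
      rw [if_neg (by omega), sub_self, mul_zero]
  rw [h]
  unfold U0
  rw [sub_sub, ← Finset.sum_add_distrib]
  congr 1
  refine Finset.sum_congr rfl fun j _ => ?_
  ring

/-- The exponents on the segment. -/
def mth (S : Sy ι X) (m' : ℕ → ℝ) (t : ℝ) : ℕ → ℝ := fun j => (1 - t) * S.m j + t * m' j

lemma mth_reg (hS : S.Reg) {m' : ℕ → ℝ} (hm' : (wm S m').Reg) {t : ℝ} (h0 : 0 ≤ t)
    (h1 : t ≤ 1) : (wm S (mth S m' t)).Reg where
  m0 := by
    have a0 := hS.m0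
    have a1 : m' 0 = 0 := hm'.m0
    show (1 - t) * S.m 0 + t * m' 0 = 0
    rw [a0, a1]; ring
  mK := by
    have a0 := hS.mK
    have a1 : m' (S.K + 1) = 1 := hm'.mK
    show (1 - t) * S.m (S.K + 1) + t * m' (S.K + 1) = 1
    rw [a0, a1]; ring
  mono := by
    intro l hl
    have a0 := hS.mono l hl
    have a1 : m' l ≤ m' (l + 1) := hm'.mono l hl
    show (1 - t) * S.m l + t * m' l ≤ (1 - t) * S.m (l + 1) + t * m' (l + 1)
    have := mul_le_mul_of_nonneg_left a0 (show 0 ≤ 1 - t by linarith)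
    have := mul_le_mul_of_nonneg_left a1 h0
    linarith
  pos := by
    have a0 := hS.pos
    have a1 : 0 < m' 1 := hm'.pos
    show 0 < (1 - t) * S.m 1 + t * m' 1
    rcases h0.eq_or_lt with h | h
    · subst h; simpa using a0
    · have := mul_pos h a1
      have := mul_nonneg (show 0 ≤ 1 - t by linarith) a0.le
      linarith
  lev := hS.lev
  lip := hS.lip

/-- **The Prekopa-Leindler step.** -/
theorem pl_ratio (h : LinS S a c) (P : Pla S b τ C) {m' : ℕ → ℝ} (hm' : (wm S m').Reg)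
    {J l0 : ℕ} (hJ1 : 1 ≤ J) (hl0 : l0 ≤ S.K) {t : ℝ} (ht : 0 < t) (ht1 : t < 1) :
    (S.Ex (fun z _ => Real.exp (-Yi S m' J l0 z))) ^ t ≤
      S.Ex (fun z _ => Real.exp (-Yi S (mth S m' t) J l0 z)) := by
  have hS := h.reg
  have hmt := mth_reg hS hm' ht.le ht1.le
  have L0 : Lip (U0 S b) := lip_U0 hS
  have L1 := lip_Yi (J := J) (l0 := l0) hS hm' hl0
  have L2 := lip_Yi (J := J) (l0 := l0) hS hmt hl0
  have inv : ∀ m'' : ℕ → ℝ, (wm S m'').Reg → ∀ y z, Yi S m'' J l0 (τ y z) = Yi S m'' J l0 z := by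
    intro m'' hm'' y z
    unfold Yi
    refine Finset.sum_congr rfl fun j hj => ?_
    rw [Finset.mem_Ico] at hj
    have e0 : (wm S m'').lg j (τ y z) = (wm S m'').lg j z := P.inv m'' hm'' j (by omega) y z
    have e1 : S.lg j (τ y z) = S.lg j z := P.inv S.m hS j (by omega) y z
    rw [e0, e1]
  have exp_neg_eg : ∀ {G : (ι → ℝ) → ℝ}, Lip G → EG fun z => Real.exp (-G z) := by
    intro G hG
    have := hG.exp_eg (-1)
    simpa only [neg_one_mul] using this
  have ex : ∀ m'' : ℕ → ℝ, (wm S m'').Reg →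
      S.Ex (fun z _ => Real.exp (-Yi S m'' J l0 z)) =
        C * ∫ z, Real.exp (U0 S b z - Yi S m'' J l0 z) ∂(gI ι) := by
    intro m'' hm''
    rw [P.ex _ (exp_neg_eg (lip_Yi hS hm'' hl0)) (fun y z => by rw [inv m'' hm''])]
    congr 1
    refine integral_congr_ae (Filter.Eventually.of_forall fun z => ?_)
    simp only
    rw [sub_eq_add_neg (U0 S b z), Real.exp_add]
    rfl
  have ex0 : 1 = C * ∫ z, Real.exp (U0 S b z) ∂(gI ι) := by
    have h1 := P.ex (fun _ => 1) (EG.const 1) (fun _ _ => rfl)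
    rw [hS.Ex_const] at h1
    rw [h1]
    congr 1
    refine integral_congr_ae (Filter.Eventually.of_forall fun z => ?_)
    simp only
    rw [mul_one]
    rfl
  have eg0 : EG fun z => Real.exp (U0 S b z) := by
    have := L0.exp_eg 1
    simpa only [one_mul] using this
  have egs : ∀ {G : (ι → ℝ) → ℝ}, Lip G → EG fun z => Real.exp (U0 S b z - G z) := by
    intro G hG
    have := (L0.add (hG.const_mul (-1))).exp_eg 1
    have e : (fun z => Real.exp (U0 S b z - G z)) =
        fun z => Real.exp (1 * (U0 S b z + -1 * G z)) := by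
      funext z; congr 1; ring
    rw [e]
    exact this
  have key := pl_real (s := 1 - t) (t := t) eg0 (egs L1) (egs L2) (by linarith) ht (by ring)
    (fun x y => by
      rw [U0_sub_Yi hJ1 hl0, U0_sub_Yi hJ1 hl0]
      have e1 : ∑ e, b e * ((1 - t) • x + t • y) e =
          (1 - t) * ∑ e, b e * x e + t * ∑ e, b e * y e := by
        rw [Finset.mul_sum, Finset.mul_sum, ← Finset.sum_add_distrib]
        refine Finset.sum_congr rfl fun e _ => ?_
        simp only [Pi.add_apply, Pi.smul_apply, smul_eq_mul]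
        ring
      have e2 : ∑ j ∈ Finset.Ico 1 (S.K + 1), (S.m (j + 1) - S.m j) *
          Lw S (mth S m' t) J l0 j ((1 - t) • x + t • y) ≤
          (1 - t) * ∑ j ∈ Finset.Ico 1 (S.K + 1), (S.m (j + 1) - S.m j) * S.lg j x +
          t * ∑ j ∈ Finset.Ico 1 (S.K + 1), (S.m (j + 1) - S.m j) * Lw S m' J l0 j y := by
        rw [Finset.mul_sum, Finset.mul_sum, ← Finset.sum_add_distrib]
        refine Finset.sum_le_sum fun j hj => ?_
        rw [Finset.mem_Ico] at hj
        have hp : 0 ≤ S.m (j + 1) - S.m j := by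
          have := hS.mono j (by omega); linarith
        have e3 : Lw S (mth S m' t) J l0 j ((1 - t) • x + t • y) ≤
            (1 - t) * S.lg j x + t * Lw S m' J l0 j y := by
          unfold Lw
          by_cases hc : J ≤ j ∧ j ≤ l0
          · rw [if_pos hc, if_pos hc]
            exact lg_jc h (m0 := S.m) (m1 := m') (mm := mth S m' t) hS hm' hmt
              (by linarith) ht.le (by ring) (fun i _ _ => rfl) j (by omega) x y
          · rw [if_neg hc, if_neg hc]
            exact h.cv_lg j (by omega) (1 - t) t (by linarith) ht.le (by ring) x y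
        have := mul_le_mul_of_nonneg_left e3 hp
        linarith
      rw [e1]
      unfold U0
      linarith)
  obtain ⟨A0, hA0⟩ : ∃ A0, A0 = ∫ z, Real.exp (U0 S b z) ∂(gI ι) := ⟨_, rfl⟩
  obtain ⟨A1, hA1⟩ : ∃ A1, A1 = ∫ z, Real.exp (U0 S b z - Yi S m' J l0 z) ∂(gI ι) := ⟨_, rfl⟩
  obtain ⟨A2, hA2⟩ : ∃ A2, A2 = ∫ z, Real.exp (U0 S b z - Yi S (mth S m' t) J l0 z) ∂(gI ι) :=
    ⟨_, rfl⟩
  rw [ex m' hm', ex _ hmt, ← hA1, ← hA2]
  rw [← hA0, ← hA1, ← hA2] at key
  rw [← hA0] at ex0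
  have hC := P.pos
  have pA0 : 0 < A0 := by rw [hA0]; exact integral_exp_pos eg0.integrable
  have pA1 : 0 < A1 := by rw [hA1]; exact integral_exp_pos (egs L1).integrable
  have e4 : (C * A1) ^ t = C * (A0 ^ (1 - t) * A1 ^ t) := by
    rw [Real.mul_rpow hC.le pA1.le]
    have e5 : C ^ (1 - t) * A0 ^ (1 - t) = 1 := by
      rw [← Real.mul_rpow hC.le pA0.le, ← ex0, Real.one_rpow]
    have e6 : C = C ^ (1 - t) * C ^ t := by
      rw [← Real.rpow_add hC]; norm_num
    calc C ^ t * A1 ^ t = (C ^ (1 - t) * A0 ^ (1 - t)) * (C ^ t * A1 ^ t) := by rw [e5, one_mul]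
      _ = (C ^ (1 - t) * C ^ t) * (A0 ^ (1 - t) * A1 ^ t) := by ring
      _ = C * (A0 ^ (1 - t) * A1 ^ t) := by rw [← e6]
  rw [e4]
  exact mul_le_mul_of_nonneg_left key hC.le

end Vale.Agent.P146.H478
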