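import Vale.Agent.P146.H478.PlG
import Vale.Agent.P146.H94.Pla
import Vale.Agent.P146.H394.Fin3

set_option linter.all false

/-!
The exponential inequality for the SK systems with tree fields.
-/

open MeasureTheory ProbabilityTheory

namespace Vale.Agent.P146.H478

open Vale.Agent.P157 Vale.Agent.P157.Lv Vale.Agent.P157.Lv.Sy
open Vale.Agent.P146.H425
open Vale.Agent.P146.Ub (RI lc st dsk fd ph)
open Vale.Agent.P146.Ub.Ld (SN AN rlv rlv_le)

/-- **The exponential inequality `Pl` for the SK systems.** -/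
theorem SN_Pl {n K N l : ℕ} {m m' s : ℕ → ℝ} {β : ℝ} (hK : 1 ≤ K) (hm : WE K m)
    (hs0 : s 0 = 0) (hN : N ≤ n) (hN0 : 0 < N) (hl1 : 1 ≤ l) (hl : l < K) (hm' : WE K m')
    (heq : ∀ j, j ≠ l + 1 → m' j = m j) : H391.Pl (SN n K 1 m β N s) m' l := by
  classical
  intro J hJ1 hJl
  exact pl_gain (SN_lin hK hm) (H94.SN_pla hK hm hs0)
    (SN_lin (n := n) (β := β) (N := N) (s := s) hK hm').reg heq hJ1 hJl hl
    (kf_nonneg (SN_lin hK hm) (SN_FL hN hl1 hl) hN0 hl)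
    (kf_le_const (SN_lin hK hm) (SN_FL hN hl1 hl) hN0 hl (ph_sq_le hN))

/-- the input of `H394.sumN3` -/
theorem plSN : H394.PlSN :=
  fun _ _ _ _ _ _ _ _ hK hm hs0 hN hN0 hl1 hl hm' heq =>
    SN_Pl hK hm hs0 hN hN0 hl1 hl hm' heq

end Vale.Agent.P146.H478
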